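import Vale.Agent.P183C.Rep

/-!
Every finite lattice without modular elements is an upper interval of a finite lattice to which
the theorem of Palfy and Pudlak applies.
-/

namespace Vale.Agent.P183C

/-- A new least element below `K`, and three new atoms below each element of `K`. -/
inductive PP (K : Type) : Type
  | bot : PP K
  | old : K → PP K
  | atom : K → Fin 3 → PP K

namespace PP

variable {K : Type} [Lattice K]

/-- The order. -/
def le : PP K → PP K → Prop
  | bot, _ => True
  | old a, old b => a ≤ b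
  | atom k _, old b => k ≤ b
  | atom k i, atom k' i' => k = k' ∧ i = i'
  | _, _ => False

open Classical in
/-- The join. -/
noncomputable def sup : PP K → PP K → PP K
  | bot, x => x
  | x, bot => x
  | old a, old b => old (a ⊔ b)
  | old a, atom k _ => old (a ⊔ k)
  | atom k _, old b => old (k ⊔ b)
  | atom k i, atom k' i' => if k = k' ∧ i = i' then atom k i else old (k ⊔ k')

open Classical in
/-- The meet. -/
noncomputable def inf : PP K → PP K → PP K
  | bot, _ => bot
  | _, bot => bot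
  | old a, old b => old (a ⊓ b)
  | old a, atom k i => if k ≤ a then atom k i else bot
  | atom k i, old b => if k ≤ b then atom k i else bot
  | atom k i, atom k' i' => if k = k' ∧ i = i' then atom k i else bot

noncomputable instance : Lattice (PP K) where
  le := le
  le_refl := by rintro (_ | a | ⟨k, i⟩) <;> simp [le]
  le_trans := by
    rintro (_ | a | ⟨k, i⟩) (_ | b | ⟨k', i'⟩) (_ | c | ⟨k'', i''⟩) <;> simp only [le] <;>
      intro h1 h2 <;> first
        | trivial
        | exact h1.elim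
        | exact h2.elim
        | exact le_trans h1 h2
        | exact h1.1 ▸ h2
        | exact ⟨h1.1.trans h2.1, h1.2.trans h2.2⟩
  le_antisymm := by
    rintro (_ | a | ⟨k, i⟩) (_ | b | ⟨k', i'⟩) h1 h2
    · rfl
    · exact h2.elim
    · exact h2.elim
    · exact h1.elim
    · exact congrArg old (le_antisymm h1 h2)
    · exact h1.elim
    · exact h1.elim
    · exact h2.elim
    · exact congrArg₂ atom h1.1 h1.2
  sup := sup
  inf := inf
  le_sup_left := by
    rintro (_ | a | ⟨k, i⟩) (_ | b | ⟨k', i'⟩) <;> simp only [sup] <;> (try split_ifs) <;>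
      simp [le]
  le_sup_right := by
    rintro (_ | a | ⟨k, i⟩) (_ | b | ⟨k', i'⟩) <;> simp only [sup] <;> (try split_ifs) <;>
      simp_all [le]
  sup_le := by
    rintro (_ | a | ⟨k, i⟩) (_ | b | ⟨k', i'⟩) (_ | c | ⟨k'', i''⟩) <;> simp only [sup] <;>
      (try split_ifs) <;> simp_all [le] <;> grind
  inf_le_left := by
    rintro (_ | a | ⟨k, i⟩) (_ | b | ⟨k', i'⟩) <;> simp only [inf] <;> (try split_ifs) <;>
      simp_all [le]
  inf_le_right := by
    rintro (_ | a | ⟨k, i⟩) (_ | b | ⟨k', i'⟩) <;> simp only [inf] <;> (try split_ifs) <;>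
      simp_all [le]
  le_inf := by
    rintro (_ | a | ⟨k, i⟩) (_ | b | ⟨k', i'⟩) (_ | c | ⟨k'', i''⟩) <;> simp only [inf] <;>
      (try split_ifs) <;> simp_all [le] <;> grind

theorem le_def (x y : PP K) : x ≤ y ↔ le x y := Iff.rfl
theorem sup_def (x y : PP K) : x ⊔ y = sup x y := rfl
theorem inf_def (x y : PP K) : x ⊓ y = inf x y := rfl

instance [OrderTop K] : BoundedOrder (PP K) where
  top := old ⊤
  bot := bot
  le_top := by rintro (_ | a | ⟨k, i⟩) <;> simp [le_def, le]
  bot_le := by intro x; simp [le_def, le]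

omit [Lattice K] in
instance [Finite K] : Finite (PP K) :=
  Finite.of_surjective (fun x : Option (K ⊕ K × Fin 3) => match x with
    | none => bot
    | some (Sum.inl a) => old a
    | some (Sum.inr p) => atom p.1 p.2) (by
      rintro (_ | a | ⟨k, i⟩)
      · exact ⟨none, rfl⟩
      · exact ⟨some (Sum.inl a), rfl⟩
      · exact ⟨some (Sum.inr (k, i)), rfl⟩)

variable [BoundedOrder K]

theorem top_def : (⊤ : PP K) = old ⊤ := rfl
theorem bot_def : (⊥ : PP K) = bot := rfl

theorem coatom (i : Fin 3) : IsCoatom (atom (⊤ : K) i) := by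
  refine ⟨by simp [top_def], ?_⟩
  rintro (_ | b | ⟨k, j⟩) hb
  · exact hb.le.elim
  · rw [top_def, top_le_iff.1 (hb.le : (⊤ : K) ≤ b)]
  · obtain ⟨h1, h2⟩ := hb.le
    subst h1 h2
    exact absurd rfl hb.ne

theorem atom_inf (i j : Fin 3) (h : i ≠ j) : atom (⊤ : K) i ⊓ atom ⊤ j = ⊥ := by
  simp [inf_def, inf, h, bot_def]

theorem simple : Simple (PP K) := by
  intro ρ hs hi a b hab hne
  have h1 : ρ (a ⊓ b) (a ⊔ b) := by
    have e1 := hi a b b hab
    have e2 := hs a b b hab
    rw [inf_idem] at e1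
    rw [sup_idem] at e2
    exact ρ.trans' e1 (ρ.symm' e2)
  have h2 : a ⊓ b < a ⊔ b := inf_lt_sup.2 hne
  generalize a ⊓ b = u at h1 h2
  generalize a ⊔ b = v at h1 h2
  have h3 : ∃ k i, ρ ⊥ (atom k i) := by
    rcases v with _ | k | ⟨k, i⟩
    · exact absurd h2 (not_lt_bot (a := u))
    · obtain ⟨i, hi'⟩ : ∃ i : Fin 3, u ≠ atom k i := by
        by_cases h : u = atom k 0
        · exact ⟨1, by simp [h]⟩
        · exact ⟨0, h⟩
      refine ⟨k, i, ?_⟩
      have e1 := hi u (old k) (atom k i) h1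
      have e2 : old k ⊓ atom k i = atom k i := by simp [inf_def, inf]
      have e3 : u ⊓ atom k i = ⊥ := by
        rcases u with _ | k' | ⟨k', i'⟩
        · rfl
        · have : ¬ k ≤ k' := fun h => h2.not_ge h
          simp [inf_def, inf, this, bot_def]
        · have : ¬ (k' = k ∧ i' = i) := fun h => hi' (by rw [h.1, h.2])
          simp only [inf_def, inf, this, if_false, bot_def]
      rwa [e2, e3] at e1
    · refine ⟨k, i, ?_⟩
      rcases u with _ | k' | ⟨k', i'⟩
      · exact h1
      · exact h2.le.elim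
      · obtain ⟨e1, e2⟩ := h2.le
        subst e1 e2
        exact absurd rfl h2.ne
  obtain ⟨k, i, h4⟩ := h3
  have h5 : ∀ j, j ≠ i → ρ (atom ⊤ j) ⊤ := by
    intro j hj
    have e1 := hs _ _ (atom ⊤ j) h4
    have e2 : atom k i ⊔ atom ⊤ j = ⊤ := by
      have : ¬ (k = ⊤ ∧ i = j) := fun h => hj h.2.symm
      simp only [sup_def, sup, this, if_false, top_def, sup_top_eq]
    rwa [e2, bot_sup_eq] at e1
  obtain ⟨j, j', hj, hj', hjj⟩ :=
    (by decide : ∀ i : Fin 3, ∃ j j' : Fin 3, j ≠ i ∧ j' ≠ i ∧ j ≠ j') i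
  have e1 := hi _ _ (atom ⊤ j') (h5 j hj)
  rw [atom_inf j j' hjj, top_inf_eq] at e1
  exact ρ.trans' e1 (h5 j' hj')

theorem not_modular (h : P183A.NoMod (⊥ : K) ⊤) (c : PP K) (hc : IsCoatom c) :
    ∃ y y', y ≤ y' ∧ y ⊔ (c ⊓ y') ≠ (y ⊔ c) ⊓ y' := by
  obtain ⟨⟨w, hw0, hw1⟩, h⟩ := h
  have hbt : (⊥ : K) ≠ ⊤ := (hw0.trans hw1).ne
  rcases c with _ | a | ⟨k, i⟩
  · have := hc.2 (atom ⊤ 0) (bot_lt_iff_ne_bot.2 (by simp [bot_def]))
    simp [top_def] at this
  · by_contra hn
    simp only [not_exists, not_and, not_not] at hn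
    have hm : P183A.ModIn ⊥ ⊤ a := by
      intro y y' _ hyy _
      have := hn (old y) (old y') hyy
      simpa [sup_def, inf_def, sup, inf] using this
    rcases h a bot_le le_top hm with h1 | h1
    · subst h1
      have := hc.2 (old w) (lt_of_le_of_ne hw0.le (by simpa using hw0.ne))
      simp only [top_def, old.injEq] at this
      exact hw1.ne this
    · subst h1
      exact hc.1 rfl
  · have hk : k = ⊤ := by
      have := hc.2 (old k) (lt_of_le_of_ne (le_refl k) (by simp))
      simpa [top_def] using this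
    subst hk
    refine ⟨atom ⊥ 0, old ⊥, le_refl (⊥ : K), ?_⟩
    simp [sup_def, inf_def, sup, inf, hbt, hbt.symm]

end PP

/-- An upper interval of a group interval is a group interval. -/
theorem gi_upper {K L : Type} [PartialOrder K] [Preorder L] (ι : K → L)
    (hι : ∀ a b, ι a ≤ ι b ↔ a ≤ b) (k : K)
    (hk : ∀ a, k ≤ a) (hr : ∀ y, ι k ≤ y → ∃ a, ι a = y) (h : P183A.GI L) : P183A.GI K := by
  obtain ⟨G, hG, hfin, H, ⟨e⟩⟩ := h
  let F : K ↪o {S : Subgroup G // (e (ι k)).1 ≤ S} :=
    OrderEmbedding.ofMapLEIff (fun a => ⟨(e (ι a)).1, e.le_iff_le.2 ((hι _ _).2 (hk a))⟩)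
      fun a b => e.le_iff_le.trans (hι a b)
  refine ⟨G, hG, hfin, (e (ι k)).1, ⟨RelIso.ofSurjective F ?_⟩⟩
  rintro ⟨S, hS⟩
  obtain ⟨a, ha⟩ := hr (e.symm ⟨S, (e (ι k)).2.trans hS⟩) (by
    rw [← e.le_iff_le, OrderIso.apply_symm_apply]
    exact hS)
  refine ⟨a, Subtype.ext ?_⟩
  change (e (ι a)).1 = S
  rw [ha, OrderIso.apply_symm_apply]

/-- If `PP K` is representable then `K` is an interval in the subgroup lattice of a finite
group. -/
theorem gi_of_representable_PP (K : Type) [Lattice K] [BoundedOrder K]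
    (h : P183A.NoMod (⊥ : K) ⊤) (hR : P183.Representable (PP K)) : P183A.GI K := by
  refine gi_upper (PP.old : K → PP K) (fun a b => Iff.rfl) ⊥ (fun a => bot_le) ?_
    (gi_of_representable PP.simple (PP.coatom 0) (PP.coatom 1) (PP.atom_inf 0 1 (by decide))
      (PP.not_modular h) hR)
  rintro (_ | a | ⟨k, i⟩) hy
  · exact hy.elim
  · exact ⟨a, rfl⟩
  · exact hy.elim

/-- Task C. -/
theorem pp (K : Type) [Lattice K] [BoundedOrder K] [Finite K]
    (h : P183A.NoMod (⊥ : K) ⊤) :
    ∃ (L : Type) (_ : Lattice L) (_ : Finite L) (_ : Nonempty L),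
      P183.Representable L → P183A.GI K :=
  ⟨PP K, inferInstance, inferInstance, ⟨PP.bot⟩, gi_of_representable_PP K h⟩

end Vale.Agent.P183C
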